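import Vale.Agent.P281.H603.TE.FibE
import Vale.Agent.P281.H125.Fib.Main
import Vale.Agent.P281.H64.TD.SpecB

/-!
# P281, project T-Delta (helper603), block G1c: a finite etale covering of the fibre which is a torus
-/

open Set Filter Metric Vale.Agent.P281 Vale.Agent.P272.K
open scoped Topology ContDiff Manifold ComplexConjugate ComplexOrder

set_option linter.unusedSectionVars false

noncomputable section

namespace Vale.Agent.P281.H603.TD

open Vale.Agent.P281.H64.TK Vale.Agent.P281.H603.K Vale.Agent.P281.H125.Fib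
open Vale.Agent.P281.H969.K.FibN
open Vale.Agent.P281.H603.TE
open Vale.Agent.P281.H64.TD (IsTorAtE FibTEStmt)

attribute [local instance] ccs'

/-- additive functions with nowhere vanishing Jacobian -/
theorem isTorW {d : ℕ} {F : Type} [TopologicalSpace F] [ChartedSpace (Cm d) F]
    [IsManifold 𝓘(ℂ, Cm d) ω F] {E Γ : Type} [TopologicalSpace E] [Group Γ] [MulAction Γ E]
    [ContinuousConstSMul Γ E] [SimplyConnectedSpace E] {S : Sheets d E Γ} {π : E → F}
    (hπ : PiW S π)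
    (hinj : ∀ j, ∀ z ∈ ball (0 : Cm d) 3, Function.Injective (D S π j z))
    (hF : IsParallel d F) : S.IsTor := by
  obtain ⟨η, hη1, hη2⟩ := hF
  choose g c hg hg' using fun a => hπ.exists_add (hη1 a)
  refine ⟨fun e a => g a e, fun a => ⟨c a, hg a⟩, fun i z hz => ?_⟩
  rw [Sheets.minor]
  have h1 : (Matrix.of fun a k => dd k (fun z => g a (S.σ i z)) z) =
      Matrix.of fun a b => ((η a (π (S.σ i z))).comp (D S π i z)) (Pi.single b 1) := by
    ext a k
    simp only [Matrix.of_apply]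
    rw [dd, (hg' a i z hz).fderiv]
  rw [h1]
  refine det_ne_zero_of fun w hw => ?_
  have h2 := hη2 (π (S.σ i z)) (D S π i z w) hw
  exact hinj i z hz (h2.trans (map_zero (D S π i z)).symm)

/-- **Block G1c** -/
theorem fibTE : FibTEStmt := by
  intro p d Z Y _ _ _ _ _ _ _ _ f S hd hf hP hAB hCore y hy F _ hFT _ i hi hpar
  obtain ⟨E, Γ, tE, t2, sc, gΓ, aΓ, cΓ, 𝓕, q, M, ht, -⟩ := hAB p d Z Y f S hd hf hP y hy
  have hyy : (chartAt (Cm p) y).symm (chartAt (Cm p) y y) = y :=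
    (chartAt (Cm p) y).left_inv (mem_chart_source _ y)
  have hqd := qd_of_model M ht
  have hFc : CompactSpace F := hi.compact
  have hFn : ConnectedSpace F := hi.connected
  have hFm : IsManifold 𝓘(ℂ, Cm d) ω F := hi.manifold
  have hri : range (q (chartAt (Cm p) y y)) = f ⁻¹' {y} := by
    rw [range_of_model M ht, hyy]
  set Q := q (chartAt (Cm p) y y) with hQ
  have hib : ∀ x, i x ∈ f ⁻¹' {y} := fun x => hi.fibre x
  have hcov : IsCoveringMap fun x : F => (⟨i x, hib x⟩ : f ⁻¹' {y}) :=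
    isCovering hqd hi.hol hi.immersion hri hib
  have hfinite : ∀ b : f ⁻¹' {y}, ((fun x : F => (⟨i x, hib x⟩ : f ⁻¹' {y})) ⁻¹' {b}).Finite := by
    intro b
    have h1 : IsClosed ((fun x : F => (⟨i x, hib x⟩ : f ⁻¹' {y})) ⁻¹' {b}) :=
      isClosed_singleton.preimage hcov.continuous
    have h2 : DiscreteTopology ((fun x : F => (⟨i x, hib x⟩ : f ⁻¹' {y})) ⁻¹' {b}) :=
      (hcov b).discreteTopology_fiber
    exact h1.isCompact.finite ⟨h2⟩
  have hQy : ∀ e, Q e ∈ f ⁻¹' {y} := by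
    intro e
    rw [← hri]
    exact ⟨e, rfl⟩
  -- a point of `F` and a point of `E` over it
  obtain ⟨x'⟩ : Nonempty F := inferInstance
  obtain ⟨e₁, he₁⟩ : i x' ∈ range Q := by
    rw [hri]
    exact hib x'
  -- the lift
  have hLP : LocallyPathConnectedSpace E := locPath (𝓕.at _ ht)
  have hw : Continuous fun e => (⟨Q e, hQy e⟩ : f ⁻¹' {y}) := hqd.Qcont.subtype_mk _
  obtain ⟨π, hcont, hπ', hπe, hcore⟩ := H603.TE.exists_lift (Γ := Γ) hcov hw
    (fun γ e => Subtype.ext ((hqd.Qeq e (γ • e)).2 ⟨γ, rfl⟩).symm)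
    (e₀ := e₁) (x₀ := x') (Subtype.ext he₁.symm) (hfinite _)
  have hπ : ∀ e, i (π e) = Q e := fun e => congrArg Subtype.val (hπ' e)
  set m := ((fun x : F => (⟨i x, hib x⟩ : f ⁻¹' {y})) ⁻¹' {⟨Q e₁, hQy e₁⟩}).ncard with hm
  have hinv : ∀ (κ : core Γ m) e, π (κ • e) = π e := fun κ e => hcore m le_rfl κ κ.2 e
  have hfin : (core Γ m).FiniteIndex := hCore d m E Γ (𝓕.at _ ht) hd
  set S₂ := sub (𝓕.at _ ht) (core Γ m) with hS₂
  have hQσ : ∀ j y, Q (S₂.σ j y) = Q (𝓕.σ (idx (core Γ m) 𝓕.N j).1 _ y) := fun j y =>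
    ((hqd.Qeq _ _).2 ⟨rep (core Γ m) (idx (core Γ m) 𝓕.N j).2, rfl⟩).symm
  have hqm : ∀ j, ∀ z ∈ ball (0 : Cm d) 3, MDifferentiableAt 𝓘(ℂ, Cm d) 𝓘(ℂ, Cm (p + d))
      (fun y' => Q (𝓕.σ (idx (core Γ m) 𝓕.N j).1 (chartAt (Cm p) y y) y')) z := fun j z hz =>
    (hqd.hol _ z hz).mdifferentiableAt (by simp)
  have hder : ∀ j, ∀ z ∈ ball (0 : Cm d) 3,
      MDifferentiableAt 𝓘(ℂ, Cm d) 𝓘(ℂ, Cm d) (fun y => π (S₂.σ j y)) z := by
    intro j z hz
    refine mdiff_lift (n := p + d) (i := i)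
      (w := fun y' => Q (𝓕.σ (idx (core Γ m) 𝓕.N j).1 (chartAt (Cm p) y y) y'))
      (hi.hol _) (hi.immersion _)
      (hcont.continuousAt.comp (S₂.map_nhds j z hz).le) (hqm j z hz) fun y' => ?_
    show i (π (S₂.σ j y')) = _
    rw [hπ, hQσ]
  have hW : PiW S₂ π := ⟨hcont, hinv, hder⟩
  have hinj : ∀ j, ∀ z ∈ ball (0 : Cm d) 3, Function.Injective (D S₂ π j z) := by
    intro j z hz3
    refine inj_lift (n := p + d) (m := p + d) (i := i) (u := id)
      (q := fun y' => Q (𝓕.σ (idx (core Γ m) 𝓕.N j).1 (chartAt (Cm p) y y) y'))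
      ((hi.hol _).mdifferentiableAt (by simp))
      mdifferentiableAt_id (hder j z hz3) (hqm j z hz3) (fun y' => ?_) ?_
      (hqd.imm hz3)
    · show i (π (S₂.σ j y')) = _
      rw [hπ, hQσ]
      rfl
    · rw [mfderiv_id]
      exact fun a b h => h
  exact ⟨m, E, Γ, tE, t2, sc, gΓ, aΓ, cΓ, 𝓕, q, chartAt (Cm p) y, _, ht, hfin, M, hyy,
    isTorW hW hinj hpar⟩

end Vale.Agent.P281.H603.TD
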