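import Vale.Agent.P281.H603.TD.TorM

/-!
# P281, project T-Delta (helper603), block G1a
-/

open Set Filter Metric MeasureTheory Vale.Agent.P281 Vale.Agent.P281.H713 Vale.Agent.P272.K
open scoped Topology ContDiff Manifold ComplexConjugate NNReal

set_option linter.unusedSectionVars false

noncomputable section

namespace Vale.Agent.P281.H603.TD

open Vale.Agent.P281.H64 (IsProperFibration)
open Vale.Agent.P281.H64.TK Vale.Agent.P281.H603.K Vale.Agent.P281.H864.K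
open Vale.Agent.P281.H603.TE
open Vale.Agent.P281.H64.TK.TE (NDegE)
open Vale.Agent.P281.H64.TD (IsTorAtE TocEStmt)
open Vale.Agent.P281.H864.Toc (isTor_iso IsoHol bas_card bas_minor AddV Nd nd_iso nd_of_gauss mm
  tor_const)

attribute [local instance] ccs

section
variable {p d : ℕ} {Z Y : Type} [TopologicalSpace Z] [T2Space Z] [ChartedSpace (Cm (p + d)) Z]
    [IsManifold 𝓘(ℂ, Cm (p + d)) ω Z] [TopologicalSpace Y] [T2Space Y] [ChartedSpace (Cm p) Y]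
    [IsManifold 𝓘(ℂ, Cm p) ω Y]

/-- Being covered by a torus is a locally constant property of the fibre. -/
theorem loc_constE (I : Inputs) (hB : TBasStmt) {m : ℕ}
    {f : Z → Y} {S : Set Y}
    {w : Chart (p + d) Z → Cm (p + d) → Matrix (Fin (p + d)) (Fin (p + d)) ℂ} (hd : 0 < d)
    (hf : ContMDiff 𝓘(ℂ, Cm (p + d)) 𝓘(ℂ, Cm p) ω f)
    (hP : IsProperFibration (n := p + d) (p := p) f S) (hw : IsKahler w)
    (hN : ∀ y ∉ S, NDegE (p + d) p d m 0 f y) {y₀ : Y} (hy₀ : y₀ ∉ S) :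
    ∃ N : Set Y, IsOpen N ∧ y₀ ∈ N ∧ ∀ y ∈ N, IsTorAtE (p + d) p d m f y →
      ∀ y' ∈ N, IsTorAtE (p + d) p d m f y' := by
  obtain ⟨E, Γ, _, _, _, _, _, _, 𝓕, q, χ, t₀, ht₀, hfin, hM, hy, i, z, hz, hG⟩ := hN y₀ hy₀
  obtain ⟨W, hPull, hKF⟩ := I.w p d Z Y f w E Γ 𝓕 q χ hf hM hw
  obtain ⟨n, ⟨M⟩⟩ := I.f1 d E (core Γ m) (sub (𝓕.at t₀ ht₀) (core Γ m)) hd
  obtain ⟨g, T', hT', F, c, hn, hTo, ht₀', hbas, hF, -⟩ :=
    I.d p d E (core Γ m) (fsub 𝓕 (core Γ m)) _ hd (kfam_sub 𝓕 (core Γ m) hKF) n M t₀ ht₀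
  have hO : {t | t ∈ T' ∧ χ.symm t ∉ S} ∈ 𝓝 t₀ := by
    have h1 : ContinuousAt χ.symm t₀ := χ.continuousAt_symm (hM.sub ht₀)
    have h2 : ∀ᶠ t in 𝓝 t₀, χ.symm t ∈ Sᶜ :=
      h1.eventually (hP.isClosed.isOpen_compl.mem_nhds (by rw [hy]; exact hy₀))
    exact Filter.inter_mem (hTo.mem_nhds ht₀') h2
  obtain ⟨r, hr, hball⟩ := Metric.mem_nhds_iff.1 hO
  have hsub : ball t₀ r ⊆ (fsub 𝓕 (core Γ m)).T := fun t ht => hT' (hball ht).1
  have hsub' : ball t₀ r ⊆ 𝓕.T := hsub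
  -- transport
  have trans : ∀ (t : Cm p) (ht : t ∈ 𝓕.T) (E' Γ' : Type) [TopologicalSpace E'] [T2Space E']
      [SimplyConnectedSpace E'] [Group Γ'] [MulAction Γ' E'] [ContinuousConstSMul Γ' E']
      (𝓕' : Fam p d E' Γ') (q' : Cm p → E' → Z) (χ' : OpenPartialHomeomorph Y (Cm p))
      (t' : Cm p) (ht' : t' ∈ 𝓕'.T) [(core Γ' m).FiniteIndex],
      Model (n := p + d) f 𝓕' χ' q' → χ'.symm t' = χ.symm t →
      ((sub (𝓕'.at t' ht') (core Γ' m)).IsTor → (sub (𝓕.at t ht) (core Γ m)).IsTor) ∧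
        (Nd (sub (𝓕'.at t' ht') (core Γ' m)) → Nd (sub (𝓕.at t ht) (core Γ m))) := by
    intro t ht E' Γ' _ _ _ _ _ _ 𝓕' q' χ' t' ht' _ hM' he
    obtain ⟨W', hPull', hKF'⟩ := I.w p d Z Y f w E' Γ' 𝓕' q' χ' hf hM' hw
    obtain ⟨τ, ρ, -, -, hc⟩ := compareE I hd hf hw hM hM' hPull hPull' ht ht' he.symm m
    exact ⟨fun h => isTor_iso (ρ := res ρ fun _ => map_core ρ m) hc.eqv (isoHol_of hc) h,
      fun h => nd_iso (ρ := res ρ fun _ => map_core ρ m) hc.eqv τ.surjective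
        (res ρ fun _ => map_core ρ m).surjective (isoHol_of hc) h⟩
  refine ⟨χ.source ∩ χ ⁻¹' ball t₀ r, χ.isOpen_inter_preimage isOpen_ball, ?_, ?_⟩
  · have h1 : χ (χ.symm t₀) = t₀ := χ.right_inv (hM.sub ht₀)
    rw [← hy]
    refine ⟨χ.map_target (hM.sub ht₀), ?_⟩
    rw [mem_preimage, h1]
    exact mem_ball_self hr
  rintro y₁ ⟨hy₁, hy₁'⟩ hTor y₂ ⟨hy₂, hy₂'⟩
  set t₁ := χ y₁ with ht₁
  have hTor1 : (sub (𝓕.at t₁ (hsub' hy₁')) (core Γ m)).IsTor := by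
    obtain ⟨E', Γ', _, _, _, _, _, _, 𝓕', q', χ', t', ht', hfin', hM', hy', hT⟩ := hTor
    exact (trans t₁ (hsub' hy₁') E' Γ' 𝓕' q' χ' t' ht' hM'
      (by rw [hy', ht₁, χ.left_inv hy₁])).1 hT
  obtain ⟨h, H, hm⟩ := hTor1
  have hg : g = d := by
    choose b hb using H
    have hb1 := hB d E (core Γ m) (sub (𝓕.at t₁ (hsub' hy₁')) (core Γ m)) h (fun γ a => b a γ) hd
      (fun a => hb a) hm
    exact bas_card (hbas t₁ (hball hy₁').1) hb1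
  subst hg
  have hA : ∀ t (ht : t ∈ ball t₀ r), AddV ((fsub 𝓕 (core Γ m)).at t (hsub ht)) (F t) :=
    fun t ht a => ⟨_, (hbas t (hball ht).1).add a⟩
  have hbas' : ∀ t (ht : t ∈ ball t₀ r), IsBas ((fsub 𝓕 (core Γ m)).at t (hsub ht)) (F t) (c t) :=
    fun t ht => hbas t (hball ht).1
  have hNz : ∀ t ∈ ball t₀ r, ∃ i, ∃ z ∈ ball (0 : Cm g) 3,
      mm (fsub 𝓕 (core Γ m)) F i (t, z) ≠ 0 := by
    intro t ht
    obtain ⟨E', Γ', _, _, _, _, _, _, 𝓕', q', χ', t', ht', hfin', hM', hy', i', z', hz', hG'⟩ :=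
      hN (χ.symm t) (hball ht).2
    obtain ⟨h', H', i, z, hz, hne⟩ :=
      (trans t (hsub' ht) E' Γ' 𝓕' q' χ' t' ht' hM' hy').2 (nd_of_gauss hz' hG')
    obtain ⟨a, ha⟩ := bas_minor (hbas' t ht) H'
    refine ⟨i, z, hz, ?_⟩
    have ha' := ha i z hz
    have hne' : ((fsub 𝓕 (core Γ m)).at t (hsub ht)).minor h' i z ≠ 0 := hne
    rw [ha'] at hne'
    exact right_ne_zero_of_mul hne'
  have h1 : ∀ i, ∀ z ∈ ball (0 : Cm g) 3, mm (fsub 𝓕 (core Γ m)) F i (t₁, z) ≠ 0 := by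
    intro i z hz
    obtain ⟨a, ha⟩ := bas_minor (hbas' t₁ hy₁') H
    have hne' : ((fsub 𝓕 (core Γ m)).at t₁ (hsub hy₁')).minor h i z ≠ 0 := hm i z hz
    rw [ha i z hz] at hne'
    exact right_ne_zero_of_mul hne'
  have h2 := tor_const isOpen_ball (convex_ball t₀ r).isPreconnected hsub
    (fun i t ht z hz j => hF i t (hball ht).1 z hz j) hA hNz hy₁' h1 hy₂'
  refine ⟨E, Γ, inferInstance, inferInstance, inferInstance, inferInstance, inferInstance,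
    inferInstance, 𝓕, q, χ, χ y₂, hsub' hy₂', hfin, hM, χ.left_inv hy₂, F (χ y₂),
    hA _ hy₂', ?_⟩
  exact fun i z hz => h2 i z hz

end

/-- **Block G1a.** -/
theorem tocE (I : Inputs) (hB : TBasStmt) : TocEStmt := by
  intro p d m Z Y _ _ _ _ _ _ _ _ f S w hd hf hP hS hw hN hT y hy
  by_contra hcon
  let A : Set Y := {y | ∃ N : Set Y, IsOpen N ∧ y ∈ N ∧ ∀ y' ∈ N, IsTorAtE (p + d) p d m f y'}
  let B : Set Y := {y | ∃ N : Set Y, IsOpen N ∧ y ∈ N ∧ ∀ y' ∈ N, ¬ IsTorAtE (p + d) p d m f y'}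
  have hAo : IsOpen A := by
    rw [isOpen_iff_mem_nhds]
    rintro y ⟨N, hN, hy, h⟩
    exact mem_of_superset (hN.mem_nhds hy) fun x hx => ⟨N, hN, hx, h⟩
  have hBo : IsOpen B := by
    rw [isOpen_iff_mem_nhds]
    rintro y ⟨N, hN, hy, h⟩
    exact mem_of_superset (hN.mem_nhds hy) fun x hx => ⟨N, hN, hx, h⟩
  have key : ∀ y ∉ S, (IsTorAtE (p + d) p d m f y → y ∈ A) ∧
      (¬ IsTorAtE (p + d) p d m f y → y ∈ B) := by
    intro y hy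
    obtain ⟨N, h1, h2, h3⟩ := loc_constE I hB hd hf hP hw hN hy
    refine ⟨fun h => ⟨N, h1, h2, h3 y h2 h⟩, fun h => ⟨N, h1, h2, fun y' hy' h' => h ?_⟩⟩
    exact h3 y' hy' h' y h2
  obtain ⟨y₁, hy₁, hT₁⟩ := hT
  obtain ⟨y₂, -, ⟨N, -, h1, h2⟩, ⟨N', -, h3, h4⟩⟩ := hS A B hAo hBo (fun x hx => by
    by_cases h : IsTorAtE (p + d) p d m f x
    · exact Or.inl ((key x hx).1 h)
    · exact Or.inr ((key x hx).2 h)) ⟨y₁, hy₁, (key y₁ hy₁).1 hT₁⟩ ⟨y, hy, (key y hy).2 hcon⟩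
  exact h4 y₂ h3 (h2 y₂ h1)

end Vale.Agent.P281.H603.TD
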