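import Vale.Agent.P281.H603.TD.Trans
import Vale.Agent.P281.H64.TD.SpecB

/-!
# P281, project T-Delta (helper603), block G1b
-/

open Set Filter Metric MeasureTheory Vale.Agent.P281 Vale.Agent.P281.H713 Vale.Agent.P272.K
open scoped Topology ContDiff Manifold ComplexConjugate NNReal

set_option linter.unusedSectionVars false

noncomputable section

namespace Vale.Agent.P281.H603.TD

open Vale.Agent.P281.H64 (Mark Qf Qf_eq bil_eq linV linV_apply functional_eq)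
open Vale.Agent.P281.H64.TK Vale.Agent.P281.H603.K Vale.Agent.P281.H864.K
open Vale.Agent.P281.H603.TE
open Vale.Agent.P281.H64.TU (TameIn KTame TameBoundStmt NormStmt)
open Vale.Agent.P281.H64.TD (IsTorM IsTorAtE TorMStmt zr)
open Vale.Agent.P281.H864.Toc (isTor_iso IsoHol bas_card bas_minor minor_sheet)

attribute [local instance] ccs

/-- comparison, in the other letters -/
theorem isoHol_of {d : ℕ} {E Γ E' Γ' : Type} [TopologicalSpace E] [Group Γ] [MulAction Γ E]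
    [TopologicalSpace E'] [Group Γ'] [MulAction Γ' E'] {S : Sheets d E Γ}
    {w : Fin S.N → Cm d → Matrix (Fin d) (Fin d) ℂ} {S' : Sheets d E' Γ'}
    {w' : Fin S'.N → Cm d → Matrix (Fin d) (Fin d) ℂ} {τ : E ≃ₜ E'} {ρ : Γ ≃* Γ'}
    (h : Cmp S w S' w' τ ρ) : IsoHol S S' τ := by
  intro i j z hz z' hz' γ he
  have key : ∀ e : E', τ.symm (γ • e) = ρ.symm γ • τ.symm e := fun e => h.symm_smul γ e
  have he' : S.σ i z = ρ.symm γ • τ.symm (S'.σ j z') := by
    rw [← key, ← he, τ.symm_apply_apply]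
  obtain ⟨θ, h1, h2, h3, h4⟩ := h.hol i j z hz z' hz' (ρ.symm γ) he'
  refine ⟨θ, h1, h2, h3, ?_⟩
  filter_upwards [h4] with v hv
  have hv' : S.σ i v = ρ.symm γ • τ.symm (S'.σ j (θ v)) := hv
  rw [hv', ← key, τ.apply_symm_apply]

variable {p d : ℕ} {Z Y : Type} [TopologicalSpace Z] [T2Space Z] [ChartedSpace (Cm (p + d)) Z]
  [IsManifold 𝓘(ℂ, Cm (p + d)) ω Z] [TopologicalSpace Y] [T2Space Y] [ChartedSpace (Cm p) Y]
  [IsManifold 𝓘(ℂ, Cm p) ω Y] {f : Z → Y}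
  {w : Chart (p + d) Z → Cm (p + d) → Matrix (Fin (p + d)) (Fin (p + d)) ℂ} {m n : ℕ}
  {B : Matrix (Fin n) (Fin n) ℝ}

/-- being a torus does not depend on the model -/
theorem isTor_at (I : Inputs) (hd : 0 < d) (hf : ContMDiff 𝓘(ℂ, Cm (p + d)) 𝓘(ℂ, Cm p) ω f)
    (hw : IsKahler w) {g : ℕ} (L : DLocE (p := p) (d := d) f w m B g) {t : Cm p}
    (ht : t ∈ L.𝓕.T) (h : IsTorAtE (p + d) p d m f (L.χ.symm t)) :
    (sub (L.𝓕.at t ht) (core L.Γ m)).IsTor := by
  obtain ⟨E', Γ', _, _, _, _, _, _, 𝓕', q', χ', t', ht', hfin, hM', hy', hT⟩ := h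
  obtain ⟨W', hPull', hKF'⟩ := I.w p d Z Y f w E' Γ' 𝓕' q' χ' hf hM' hw
  obtain ⟨τ, ρ, -, -, hc⟩ := compareE I hd hf hw L.model hM' L.pull hPull' ht ht' hy'.symm m
  exact isTor_iso (ρ := res ρ fun _ => map_core ρ m) hc.eqv (isoHol_of hc) hT

theorem g_eq (hB : TBasStmt) (hd : 0 < d) {g : ℕ} (L : DLocE (p := p) (d := d) f w m B g)
    {t : Cm p} (ht : t ∈ L.T') (h : (sub (L.𝓕.at t (L.hT' ht)) (core L.Γ m)).IsTor) :
    g = d := by
  obtain ⟨h, H, hm⟩ := h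
  choose b hb using H
  have hb1 := hB d L.E (core L.Γ m) (sub (L.𝓕.at t (L.hT' ht)) (core L.Γ m)) h
    (fun γ a => b a γ) hd (fun a => hb a) hm
  exact bas_card (L.bas t ht) hb1

/-- **Block G1b** -/
theorem torM (I : Inputs) (hU : TUniStmt) (hB : TBasStmt) (hTB : TameBoundStmt)
    (hNo : NormStmt) : TorMStmt := by
  intro p d m Z Y _ _ _ _ _ _ _ _ f S w hd hf hP hconn hw hT hne
  obtain ⟨y₁, hy₁⟩ := hne
  obtain ⟨n, g, hn, B, hL⟩ := dglobE I hd m hf hw hP hconn hy₁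
  have hIT : ∀ (L : DLocE (p := p) (d := d) f w m B g), (∀ t ∈ L.T', L.χ.symm t ∉ S) →
      ∀ (t : Cm p) (ht : t ∈ L.T'), (sub (L.𝓕.at t (L.hT' ht)) (core L.Γ m)).IsTor :=
    fun L h t ht => isTor_at I hd hf hw L (L.hT' ht) (hT _ (h t ht))
  obtain rfl : g = d := by
    obtain ⟨L, h1, h2, h3⟩ := hL y₁ hy₁
    exact g_eq hB hd L h2 (hIT L h3 _ h2)
  choose L h1 h2 h3 using fun a : {y : Y // y ∉ S} => hL a.1 a.2
  have hLT : ∀ a, IsT (L a) := fun a => isT hU hd (L a) (hIT (L a) (h3 a))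
  have h4 : ∀ a, a.1 ∈ (L a).U := fun a => ⟨h1 a, h2 a⟩
  choose hB' D hD using fun a => (L a).F2_at I.f2 hd hn (h2 a)
  have hSU : ∀ a y, y ∈ (L a).U → y ∉ S := by
    intro a y hy
    have h5 := h3 a _ hy.2
    rwa [(L a).left_inv hy] at h5
  refine ⟨n, Qf B, {y : Y // y ∉ S}, fun a => (L a).U, fun a => (L a).π (D a),
    fun a => u (L a), ?_⟩
  exact
    { cover := fun y => ⟨fun hy => ⟨⟨y, hy⟩, h4 ⟨y, hy⟩⟩, fun ⟨a, ha⟩ => hSU a y ha⟩
      isOpen := fun a => (L a).isOpen_U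
      hol := fun a x y hy => DLocE.hol_π I.f2 hd hn (D a) x hy
      polarized := fun a y hy => DLocE.polarized I.f2 hd hn (D a) hy
      dim := finrank_euclideanSpace_fin
      mem := fun a y hy v => f_u hy v
      surj := fun a x hx => u_surj (hLT a) hx
      uhol := fun a y hy v => u_hol (hLT a) hy v
      chart := fun a y hy v => u_chart (hLT a) hf hy v
      per := fun a y hy v k => u_per I.f2 hd hn (hLT a) (D a) hy v k
      trans := fun a b y hy v v' hv =>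
        u_trans I hd hn hf hw (hLT a) (hLT b) (D a) (D b) hy.1 hy.2 hv
      bound := by
        intro r K hr hK
        obtain ⟨A, hA⟩ := hTB _ r K hd hr hK
        refine ⟨max A 0, fun a q v₀ hq hT hy => ?_⟩
        exact u_bound hNo I.f2 hd hn hr hA (hLT a) (D a) hq hT hy }

end Vale.Agent.P281.H603.TD
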