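import Vale.Agent.P281.H603.TD.Unif

/-!
# P281, project T-Delta (helper603), block G1: the fibre coordinates
-/

open Set Filter Metric MeasureTheory Vale.Agent.P281 Vale.Agent.P281.H713 Vale.Agent.P272.K
open scoped Topology ContDiff Manifold ComplexConjugate NNReal

set_option linter.unusedSectionVars false

noncomputable section

namespace Vale.Agent.P281.H603.TD

open Vale.Agent.P281.H64 (Mark Qf Qf_eq bil_eq linV linV_apply functional_eq)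
open Vale.Agent.P281.H64.TK Vale.Agent.P281.H603.K Vale.Agent.P281.H864.K
open Vale.Agent.P281.H603.TE

attribute [local instance] ccs

variable {p d : ℕ} {Z Y : Type} [TopologicalSpace Z] [T2Space Z] [ChartedSpace (Cm (p + d)) Z]
  [IsManifold 𝓘(ℂ, Cm (p + d)) ω Z] [TopologicalSpace Y] [T2Space Y] [ChartedSpace (Cm p) Y]
  [IsManifold 𝓘(ℂ, Cm p) ω Y] {f : Z → Y}
  {w : Chart (p + d) Z → Cm (p + d) → Matrix (Fin (p + d)) (Fin (p + d)) ℂ} {m n : ℕ}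
  {B : Matrix (Fin n) (Fin n) ℝ}

section
variable {g : ℕ} {L : DLocE (p := p) (d := d) f w m B g}

theorem mfderiv_χ (hf : ContMDiff 𝓘(ℂ, Cm (p + d)) 𝓘(ℂ, Cm p) ω f) {x : Z} (hx : f x ∈ L.U)
    {ξ : Cm (p + d)} (hξ : mfderiv 𝓘(ℂ, Cm (p + d)) 𝓘(ℂ, Cm p) f x ξ = 0) :
    mfderiv 𝓘(ℂ, Cm (p + d)) 𝓘(ℂ, Cm p) (fun x' => L.χ (f x')) x ξ = 0 := by
  have h9 := mfderiv_comp_apply x (g := L.χ) (f := f)
    ((L.contMDiffAt_χ hx).mdifferentiableAt (by simp)) ((hf x).mdifferentiableAt (by simp)) ξ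
  have h10 : (L.χ : Y → Cm p) ∘ f = fun x' => L.χ (f x') := rfl
  rw [h10] at h9
  rw [h9, hξ]
  exact map_zero _

/-- the derivative of the coordinates, along the fibre -/
theorem mfderiv_pair (hf : ContMDiff 𝓘(ℂ, Cm (p + d)) 𝓘(ℂ, Cm p) ω f) {x : Z} (hx : f x ∈ L.U)
    {ζ : Z → Cm d} (h2 : ContMDiffAt 𝓘(ℂ, Cm (p + d)) 𝓘(ℂ, Cm d) ω ζ x)
    {ξ : Cm (p + d)} (hξ : mfderiv 𝓘(ℂ, Cm (p + d)) 𝓘(ℂ, Cm p) f x ξ = 0) :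
    MDifferentiableAt 𝓘(ℂ, Cm (p + d)) 𝓘(ℂ, Cm p × Cm d) (fun x' => (L.χ (f x'), ζ x')) x ∧
    mfderiv 𝓘(ℂ, Cm (p + d)) 𝓘(ℂ, Cm p × Cm d) (fun x' => (L.χ (f x'), ζ x')) x ξ =
      ((0 : Cm p), (mfderiv 𝓘(ℂ, Cm (p + d)) 𝓘(ℂ, Cm d) ζ x ξ : Cm d)) := by
  have h7 : MDifferentiableAt 𝓘(ℂ, Cm (p + d)) 𝓘(ℂ, Cm p) (fun x' => L.χ (f x')) x :=
    (ContMDiffAt.comp x (g := L.χ) (f := f) (L.contMDiffAt_χ hx) (hf x)).mdifferentiableAt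
      (by simp)
  have h7' : MDifferentiableAt 𝓘(ℂ, Cm (p + d)) 𝓘(ℂ, Cm d) ζ x := h2.mdifferentiableAt (by simp)
  have h8 := mfderiv_χ (L := L) hf hx hξ
  refine ⟨?_, ?_⟩
  · rw [modelWithCornersSelf_prod, ← chartedSpaceSelf_prod]
    exact h7.prodMk h7'
  have h11 : mfderiv 𝓘(ℂ, Cm (p + d)) (𝓘(ℂ, Cm p).prod 𝓘(ℂ, Cm d))
      (fun x' => (L.χ (f x'), ζ x')) x =
    (mfderiv 𝓘(ℂ, Cm (p + d)) 𝓘(ℂ, Cm p) (fun x' => L.χ (f x')) x).prod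
      (mfderiv 𝓘(ℂ, Cm (p + d)) 𝓘(ℂ, Cm d) ζ x) := mfderiv_prodMk h7 h7'
  have h12 : mfderiv 𝓘(ℂ, Cm (p + d)) 𝓘(ℂ, Cm p × Cm d) (fun x' => (L.χ (f x'), ζ x')) x =
      (mfderiv 𝓘(ℂ, Cm (p + d)) 𝓘(ℂ, Cm p) (fun x' => L.χ (f x')) x).prod
      (mfderiv 𝓘(ℂ, Cm (p + d)) 𝓘(ℂ, Cm d) ζ x) := by
    rw [← h11, modelWithCornersSelf_prod, ← chartedSpaceSelf_prod]
  rw [h12]
  exact Prod.ext h8 rfl

/-- the coordinates `(χ (f x), ζ x)` are independent -/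
theorem co_inj (hf : ContMDiff 𝓘(ℂ, Cm (p + d)) 𝓘(ℂ, Cm p) ω f) {x : Z} (hx : f x ∈ L.U)
    {i : Fin L.𝓕.N} {ζ : Z → Cm d} (h : L.IsCo x i ζ)
    {ξ : Cm (p + d)} (hξ : mfderiv 𝓘(ℂ, Cm (p + d)) 𝓘(ℂ, Cm p) f x ξ = 0)
    (hξ' : mfderiv 𝓘(ℂ, Cm (p + d)) 𝓘(ℂ, Cm d) ζ x ξ = 0) : ξ = 0 := by
  obtain ⟨h2, h3, h4⟩ := h
  set Φ : Cm p × Cm d → Z := fun r => L.q r.1 (L.𝓕.σ i r.1 r.2) with hΦ
  have hΦd : MDifferentiableAt 𝓘(ℂ, Cm p × Cm d) 𝓘(ℂ, Cm (p + d)) Φ (L.χ (f x), ζ x) :=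
    (L.model.hol i _ (L.hT' hx.2) _ h3).mdifferentiableAt (by simp)
  obtain ⟨hP, hP0⟩ := mfderiv_pair (L := L) hf hx h2 hξ
  have h14 := mfderiv_comp_apply x (g := Φ) (f := fun x' => (L.χ (f x'), ζ x')) hΦd hP ξ
  rw [hP0] at h14
  have h15 : (Φ ∘ fun x' => (L.χ (f x'), ζ x')) =ᶠ[𝓝 x] id := by
    filter_upwards [h4] with x' a
    exact a
  rw [h15.mfderiv_eq, mfderiv_id] at h14
  have h16 : ((0 : Cm p), (mfderiv 𝓘(ℂ, Cm (p + d)) 𝓘(ℂ, Cm d) ζ x ξ : Cm d)) = 0 :=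
    Prod.ext rfl hξ'
  refine h14.trans ?_
  exact (congrArg (fun v : Cm p × Cm d =>
    (mfderiv 𝓘(ℂ, Cm p × Cm d) 𝓘(ℂ, Cm (p + d)) Φ (L.χ (f x), ζ x) v : Cm (p + d))) h16).trans
    (map_zero _)

/-- the derivative of a holomorphic function of the coordinates, along the fibre -/
theorem co_deriv (hf : ContMDiff 𝓘(ℂ, Cm (p + d)) 𝓘(ℂ, Cm p) ω f) {V : Type}
    [NormedAddCommGroup V] [NormedSpace ℂ V] {G : Cm p × Cm d → V} {x : Z} (hx : f x ∈ L.U)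
    {ζ : Z → Cm d} (h2 : ContMDiffAt 𝓘(ℂ, Cm (p + d)) 𝓘(ℂ, Cm d) ω ζ x)
    (hG : DifferentiableAt ℂ G (L.χ (f x), ζ x))
    {ξ : Cm (p + d)} (hξ : mfderiv 𝓘(ℂ, Cm (p + d)) 𝓘(ℂ, Cm p) f x ξ = 0) :
    mfderiv 𝓘(ℂ, Cm (p + d)) 𝓘(ℂ, V) (fun x' => G (L.χ (f x'), ζ x')) x ξ =
      fderiv ℂ G (L.χ (f x), ζ x) (0, mfderiv 𝓘(ℂ, Cm (p + d)) 𝓘(ℂ, Cm d) ζ x ξ) := by
  obtain ⟨hP, hP0⟩ := mfderiv_pair (L := L) hf hx h2 hξ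
  have h14 := mfderiv_comp_apply x (g := G) (f := fun x' => (L.χ (f x'), ζ x'))
    hG.mdifferentiableAt hP ξ
  rw [hP0, mfderiv_eq_fderiv] at h14
  exact h14

end

variable {L : DLocE (p := p) (d := d) f w m B d}

/-- **the fibre coordinates** -/
theorem u_chart (h : IsT L) (hf : ContMDiff 𝓘(ℂ, Cm (p + d)) 𝓘(ℂ, Cm p) ω f) {y : Y}
    (hy : y ∈ L.U) (v : EuclideanSpace ℂ (Fin d)) :
    ∃ ζ : Z → EuclideanSpace ℂ (Fin d),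
      ContMDiffAt 𝓘(ℂ, Cm (p + d)) 𝓘(ℂ, EuclideanSpace ℂ (Fin d)) ω ζ (u L y v) ∧
      ζ (u L y v) = v ∧ (∀ᶠ z in 𝓝 (u L y v), u L (f z) (ζ z) = z) ∧
      (∀ᶠ z in 𝓝 (y, v), ζ (u L z.1 z.2) = z.2) ∧
      ∀ ξ : Cm (p + d), mfderiv 𝓘(ℂ, Cm (p + d)) 𝓘(ℂ, Cm p) f (u L y v) ξ = 0 →
        mfderiv 𝓘(ℂ, Cm (p + d)) 𝓘(ℂ, EuclideanSpace ℂ (Fin d)) ζ (u L y v) ξ = 0 → ξ = 0 := by
  obtain ⟨γ, i, z, hz, h1, h2⟩ := exists_sheet h hy.2 v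
  obtain ⟨ψ, h3, h4, h5⟩ := local_inv h γ i hy.2 hz
  rw [h2] at h3 h4 h5
  set x := u L y v with hx
  have hfx : f x = y := f_u hy v
  have hfU : f x ∈ L.U := by rw [hfx]; exact hy
  have hxz : L.q (L.χ (f x)) (L.𝓕.σ i (L.χ (f x)) z) = x := by
    rw [hfx, hx, u, h1]
    exact (L.q_smul hy γ _).symm
  obtain ⟨ζ₀, hco, hζ₀⟩ := L.exists_co hfU hz hxz
  have hlift : L.IsLift x fun x' =>
      WithLp.toLp 2 (L.F (L.χ (f x')) (γ • L.𝓕.σ i (L.χ (f x')) (ζ₀ x'))) :=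
    DLocE.exists_lift' hfU γ hco
  have huc : ContinuousAt (fun z : Y × EuclideanSpace ℂ (Fin d) => u L z.1 z.2) (y, v) :=
    (u_hol h hy v).continuousAt
  refine ⟨fun x' => lf L γ i (L.χ (f x'), ζ₀ x'), hlift.hol hf, ?_, ?_, ?_, ?_⟩
  · show lf L γ i (L.χ (f x), ζ₀ x) = v
    rw [hζ₀, hfx]
    exact h2
  · filter_upwards [hco.2.2, L.eventually_mem hf hfU] with x' a b
    have e1 : inv L (L.χ (f x')) (lf L γ i (L.χ (f x'), ζ₀ x')) =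
        γ • L.𝓕.σ i (L.χ (f x')) (ζ₀ x') := inv_eq h b.2 rfl
    rw [u, e1, L.q_smul b γ]
    exact a
  · -- the other composition
    have e1 : ∀ᶠ r : Y × EuclideanSpace ℂ (Fin d) in 𝓝 (y, v), r.1 ∈ L.U :=
      continuous_fst.continuousAt.eventually (L.isOpen_U.mem_nhds hy)
    have e2 : ∀ᶠ r : Y × EuclideanSpace ℂ (Fin d) in 𝓝 (y, v),
        L.q (L.χ (f (u L r.1 r.2))) (L.𝓕.σ i (L.χ (f (u L r.1 r.2))) (ζ₀ (u L r.1 r.2))) =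
          u L r.1 r.2 := huc.eventually hco.2.2
    have e3 : ∀ᶠ r : Y × EuclideanSpace ℂ (Fin d) in 𝓝 (y, v),
        ζ₀ (u L r.1 r.2) ∈ ball (0 : Cm d) 3 := by
      have h6 : ContinuousAt (fun r : Y × EuclideanSpace ℂ (Fin d) => ζ₀ (u L r.1 r.2)) (y, v) :=
        ContinuousAt.comp (g := ζ₀) (f := fun r : Y × EuclideanSpace ℂ (Fin d) => u L r.1 r.2)
          hco.1.continuousAt huc
      exact h6.eventually (isOpen_ball.mem_nhds hco.2.1)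
    have e4 : ∀ᶠ r : Y × EuclideanSpace ℂ (Fin d) in 𝓝 (y, v), L.χ r.1 ∈ L.T' ∧
        ψ (L.χ r.1, r.2) ∈ ball (0 : Cm d) 3 ∧ lf L γ i (L.χ r.1, ψ (L.χ r.1, r.2)) = r.2 ∧
          inv L (L.χ r.1) r.2 = γ • L.𝓕.σ i (L.χ r.1) (ψ (L.χ r.1, r.2)) := by
      have h6 : ContinuousAt (fun r : Y × EuclideanSpace ℂ (Fin d) => (L.χ r.1, r.2)) (y, v) :=
        ContinuousAt.prodMk (ContinuousAt.comp (g := L.χ)
          (f := fun r : Y × EuclideanSpace ℂ (Fin d) => r.1) (L.contMDiffAt_χ hy).continuousAt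
          continuous_fst.continuousAt) continuous_snd.continuousAt
      exact h6.eventually h5
    filter_upwards [e1, e2, e3, e4] with r a1 a2 a3 a4
    obtain ⟨b1, b2, b3, b4⟩ := a4
    have h7 : f (u L r.1 r.2) = r.1 := f_u a1 r.2
    show lf L γ i (L.χ (f (u L r.1 r.2)), ζ₀ (u L r.1 r.2)) = r.2
    rw [h7] at a2 ⊢
    have h8 : u L r.1 r.2 = L.q (L.χ r.1) (L.𝓕.σ i (L.χ r.1) (ψ (L.χ r.1, r.2))) := by
      rw [u, b4]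
      exact L.q_smul a1 γ _
    have h9 : ζ₀ (u L r.1 r.2) = ψ (L.χ r.1, r.2) := by
      refine DLocE.eq_of_q (L := L) a1 (γ := 1) (i := i) a3 b2 ?_
      rw [one_smul, a2, h8]
    rw [h9, b3]
  · intro ξ hξ hξ'
    have hG : DifferentiableAt ℂ (lf L γ i) (L.χ (f x), ζ₀ x) :=
      (lf_contDiffAt γ i hfU.2 hco.2.1).differentiableAt (by simp)
    have h6 := co_deriv (L := L) hf hfU hco.1 hG hξ
    exact co_inj (L := L) hf hfU hco hξ (lf_inj h γ i hfU.2 hco.2.1 (h6.symm.trans hξ'))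

end Vale.Agent.P281.H603.TD
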