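import Vale.Agent.P281.H603.TD.Chart

/-!
# P281, project T-Delta (helper603), block G1: the changes of uniformization, the bounds
-/

open Set Filter Metric MeasureTheory Vale.Agent.P281 Vale.Agent.P281.H713 Vale.Agent.P272.K
open scoped Topology ContDiff Manifold ComplexConjugate NNReal

set_option linter.unusedSectionVars false

noncomputable section

namespace Vale.Agent.P281.H603.TD

open Vale.Agent.P281.H64 (Mark Qf Qf_eq bil_eq linV linV_apply functional_eq)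
open Vale.Agent.P281.H64.TK Vale.Agent.P281.H603.K Vale.Agent.P281.H864.K
open Vale.Agent.P281.H603.TE
open Vale.Agent.P281.H64.TU (TameIn KTame TameBoundStmt NormStmt)

attribute [local instance] ccs

variable {p d : ℕ} {Z Y : Type} [TopologicalSpace Z] [T2Space Z] [ChartedSpace (Cm (p + d)) Z]
  [IsManifold 𝓘(ℂ, Cm (p + d)) ω Z] [TopologicalSpace Y] [T2Space Y] [ChartedSpace (Cm p) Y]
  [IsManifold 𝓘(ℂ, Cm p) ω Y] {f : Z → Y}
  {w : Chart (p + d) Z → Cm (p + d) → Matrix (Fin (p + d)) (Fin (p + d)) ℂ} {m n : ℕ}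
  {B : Matrix (Fin n) (Fin n) ℝ}

/-- **change of uniformization** -/
theorem u_trans (I : Inputs) (hd : 0 < d) (hn : n = 2 * d)
    (hf : ContMDiff 𝓘(ℂ, Cm (p + d)) 𝓘(ℂ, Cm p) ω f) (hw : IsKahler w)
    {L L' : DLocE (p := p) (d := d) f w m B d} (h : IsT L) (h' : IsT L')
    (D D' : (Fin n → ℝ) ≃L[ℝ] EuclideanSpace ℂ (Fin d)) {y : Y} (hy : y ∈ L.U) (hy' : y ∈ L'.U)
    {v v' : EuclideanSpace ℂ (Fin d)} (hv : u L y v = u L' y v') :
    ∃ (G : EuclideanSpace ℂ (Fin d) ≃L[ℂ] EuclideanSpace ℂ (Fin d)) (c : EuclideanSpace ℂ (Fin d)),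
      IsPeriodChange (Qf B) (L.π D y) (L'.π D' y) G ∧ G v + c = v' ∧
        ∀ s, u L' y (G s + c) = u L y s := by
  have ht := L.hT' hy.2
  have ht' := L'.hT' hy'.2
  set t := L.χ y with htd
  set t' := L'.χ y with htd'
  obtain ⟨τ, ρ, hq, hc, -⟩ := compareE I hd hf hw L.model L'.model L.pull L'.pull ht ht'
    (by rw [htd, htd', L.left_inv hy, L'.left_inv hy']) m
  -- the points over `v` and `v'`
  have k4 : L'.q t' (τ (inv L t v)) = L'.q t' (inv L' t' v') := by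
    rw [hq]
    exact hv
  obtain ⟨δ, hδ⟩ := (L'.model.eq _ ht' _ _).1 k4
  have hc' := hc.smul δ
  have hcK := hc'.sub (K := core L.Γ m) (K' := core L'.Γ m)
    fun _ => map_core (ρ.trans (MulAut.conj δ)) m
  obtain ⟨hB, -⟩ := L.F2_at I.f2 hd hn hy.2
  obtain ⟨G, b, hG, hGF⟩ := hcK.change I hd (kah_fW _ L.kfam ht) (kah_fW _ L'.kfam ht')
    (L.form _ ht) (L'.form _ ht') hB (L.bas _ hy.2) (L'.bas _ hy'.2)
    (DLocE.π_spec I.f2 hd hn D hy) (DLocE.π_spec I.f2 hd hn D' hy')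
  set τ' := τ.trans (Homeomorph.smul δ) with hτ'
  have key : ∀ s, (WithLp.toLp 2 (L'.F t' (τ' (inv L t s))) : EuclideanSpace ℂ (Fin d)) =
      G s + b := by
    intro s
    rw [hGF, F_inv h hy.2]
  refine ⟨G, b, hG, ?_, fun s => ?_⟩
  · rw [← key v]
    have h1 : τ' (inv L t v) = inv L' t' v' := hδ
    rw [h1, F_inv h' hy'.2]
  · rw [← key s, u_eq h' hy', u]
    have h1 : L'.q t' (τ' (inv L t s)) = L'.q t' (τ (inv L t s)) := L'.q_smul hy' δ _
    rw [← htd', h1, hq]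

/-- **the bounds** -/
theorem u_bound (hNo : NormStmt) (hF2 : F2Stmt) (hd : 0 < d) (hn : n = 2 * d) {r C : ℝ}
    (hr : 0 < r) {A : ℝ}
    (hA : ∀ (E Γ : Type) [TopologicalSpace E]
    [T2Space E] [SimplyConnectedSpace E] [Group Γ] [MulAction Γ E] [ContinuousConstSMul Γ E]
    (S : Sheets d E Γ) (w : Fin S.N → Cm d → Matrix (Fin d) (Fin d) ℂ) (h : E → ℂ) (c : Γ → ℂ),
    Kah S w → Add S h c → (S.herm w h h).re ≤ 1 → ∀ (q : Cm d → E) (v₀ : Cm d),
    PolyIn S q v₀ r → TameIn S w C q v₀ r →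
    ∀ v ∈ ball v₀ (r / 2), ‖fderiv ℂ (fun u => h (q u)) v‖ ≤ A)
    {L : DLocE (p := p) (d := d) f w m B d} (hL : IsT L)
    (D : (Fin n → ℝ) ≃L[ℝ] EuclideanSpace ℂ (Fin d)) {q : Cm d → Z} {v₀ : Cm d}
    (hq : IsPolydisc (Cm (p + d)) f q v₀ r) (hT : KTame w C q v₀ r) (hy : f (q v₀) ∈ L.U) :
    ∃ h : (Fin d → ℂ) → EuclideanSpace ℂ (Fin d), DifferentiableOn ℂ h (ball v₀ r) ∧
      (∀ v ∈ ball v₀ r, u L (f (q v₀)) (h v) = q v) ∧
      ∀ G : EuclideanSpace ℂ (Fin d) ≃L[ℂ] EuclideanSpace ℂ (Fin d),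
        (∀ x x', (inner ℂ (G (L.π D (f (q v₀)) x)) (G (L.π D (f (q v₀)) x'))).im = Qf B x x') →
        ∀ v ∈ ball v₀ (r / 2), ‖fderiv ℂ (fun u => G (h u)) v‖ ≤ max A 0 := by
  obtain ⟨q', hqq, hpoly⟩ := lift_polyM L.model hy.1 (L.hT' hy.2) hq rfl hr
  set y := f (q v₀) with hydef
  set t := L.χ y with htdef
  have ht := L.hT' hy.2
  have hbas := L.bas _ hy.2
  set h : Cm d → EuclideanSpace ℂ (Fin d) := fun v => WithLp.toLp 2 (L.F t (q' v)) with hh
  have hdiff : DifferentiableOn ℂ h (ball v₀ r) := by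
    intro v hv
    obtain ⟨γ, i, z, hz, he⟩ := (L.sh hy).cover (q' v)
    have hz3 := Sh.mem3 hz
    obtain ⟨θ, k1, k2, k3⟩ := hpoly.hol v hv i z hz3 γ he.symm
    have h2 : DifferentiableAt ℂ (fun u => (WithLp.toLp 2
        (L.F t (γ • L.𝓕.σ i t (θ u))) : EuclideanSpace ℂ (Fin d))) v :=
      DifferentiableAt.comp (g := fun u => (WithLp.toLp 2
        (L.F t (γ • L.𝓕.σ i t u)) : EuclideanSpace ℂ (Fin d))) (f := θ) v
        (by rw [k2]; exact DLocE.differentiableAt_slice hy γ i hz3) k1.differentiableAt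
    refine (h2.congr_of_eventuallyEq ?_).differentiableWithinAt
    filter_upwards [k3] with u hu
    rw [hh]
    simp only
    rw [hu]
    rfl
  refine ⟨h, hdiff, ?_, ?_⟩
  · intro v hv
    rw [hh]
    simp only
    rw [htdef, u_eq hL hy]
    exact hqq v hv
  · intro G hG v hv
    have hvr : v ∈ ball v₀ r := ball_subset_ball (by linarith) hv
    have hGd : DifferentiableAt ℂ (fun u => G (h u)) v :=
      G.differentiableAt.comp v (hdiff.differentiableAt (isOpen_ball.mem_nhds hvr))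
    refine ContinuousLinearMap.opNorm_le_bound _ (le_max_right _ _) fun ξ => ?_
    obtain ⟨l, hl1, hl2⟩ := exists_dual_vector'' ℂ (fderiv ℂ (fun u => G (h u)) v ξ)
    have hK := kah_fW (core L.Γ m) L.kfam ht
    set c' : core L.Γ m → ℂ := fun γ => l (G (WithLp.toLp 2 (L.c t γ))) with hc'
    have hAdd : Add (L.shK hy) (fun e => l (G (WithLp.toLp 2 (L.F t e)))) c' := by
      set l' : EuclideanSpace ℂ (Fin d) →L[ℂ] ℂ := l.comp (G : EuclideanSpace ℂ (Fin d) →L[ℂ]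
        EuclideanSpace ℂ (Fin d)) with hl'
      have h1 := Add.sum hbas.add (fun j => l' (WithLp.toLp 2 (Pi.single j 1)))
      have h2 : (fun e => l (G (WithLp.toLp 2 (L.F t e)))) =
          fun e => ∑ j, l' (WithLp.toLp 2 (Pi.single j 1)) * L.F t e j := by
        funext e
        exact functional_eq l' _
      have h3 : c' = fun γ => ∑ j, l' (WithLp.toLp 2 (Pi.single j 1)) * L.c t γ j := by
        funext γ
        exact functional_eq l' _
      rw [h2, h3]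
      exact h1
    have h4 := hA L.E (core L.Γ m) (L.shK hy) _ _ c' hK hAdd
      (hNo d L.E (core L.Γ m) (L.shK hy) _ n d L.M B _ _ hd hK hn (L.form _ ht) hbas
        (L.π D y) (DLocE.π_spec hF2 hd hn D hy) G hG l hl1) q' v₀ (polyIn_sub _ hpoly)
      (tameIn_sub _ (tameInM L.model L.pull ht hqq hT)) v hv
    have h5 : fderiv ℂ (fun u => l (G (WithLp.toLp 2 (L.F t (q' u))))) v =
        l.comp (fderiv ℂ (fun u => G (h u)) v) :=
      (l.hasFDerivAt.comp v hGd.hasFDerivAt).fderiv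
    rw [h5] at h4
    have h6 : ‖fderiv ℂ (fun u => G (h u)) v ξ‖ = ‖l (fderiv ℂ (fun u => G (h u)) v ξ)‖ := by
      rw [hl2]
      simp
    rw [h6]
    calc ‖l (fderiv ℂ (fun u => G (h u)) v ξ)‖ =
          ‖(l.comp (fderiv ℂ (fun u => G (h u)) v)) ξ‖ := rfl
      _ ≤ ‖l.comp (fderiv ℂ (fun u => G (h u)) v)‖ * ‖ξ‖ := ContinuousLinearMap.le_opNorm _ _
      _ ≤ max A 0 * ‖ξ‖ := by
        gcongr
        exact h4.trans (le_max_left _ _)

end Vale.Agent.P281.H603.TD
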