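import Vale.Agent.P281.H603.TE.AlbE
import Vale.Agent.P281.H864.Toc.Toc

/-!
# P281, project T-Delta (helper603), block G1: finite etale coverings of the fibres which are tori,
the uniformization
-/

open Set Filter Metric MeasureTheory Vale.Agent.P281 Vale.Agent.P281.H713 Vale.Agent.P272.K
open scoped Topology ContDiff Manifold ComplexConjugate NNReal

set_option linter.unusedSectionVars false

noncomputable section

namespace Vale.Agent.P281.H603.TD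

open Vale.Agent.P281.H64 (Mark Qf Qf_eq bil_eq linV linV_apply functional_eq)
open Vale.Agent.P281.H64.TK Vale.Agent.P281.H603.K Vale.Agent.P281.H864.K
open Vale.Agent.P281.H603.TE
open Vale.Agent.P281.H864.Toc (isTor_iso IsoHol bas_card bas_minor minor_sheet)

attribute [local instance] ccs

variable {p d : ℕ} {Z Y : Type} [TopologicalSpace Z] [T2Space Z] [ChartedSpace (Cm (p + d)) Z]
  [IsManifold 𝓘(ℂ, Cm (p + d)) ω Z] [TopologicalSpace Y] [T2Space Y] [ChartedSpace (Cm p) Y]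
  [IsManifold 𝓘(ℂ, Cm p) ω Y] {f : Z → Y}
  {w : Chart (p + d) Z → Cm (p + d) → Matrix (Fin (p + d)) (Fin (p + d)) ℂ} {m n : ℕ}
  {B : Matrix (Fin n) (Fin n) ℝ}

/-- the coverings of the fibres are tori, uniformized by `F t` -/
structure IsT (L : DLocE (p := p) (d := d) f w m B d) : Prop where
  bij : ∀ t ∈ L.T', Function.Bijective (L.F t)
  minor : ∀ (t : Cm p) (ht : t ∈ L.T') (j : Fin (sub (L.𝓕.at t (L.hT' ht)) (core L.Γ m)).N),
    ∀ z ∈ ball (0 : Cm d) 3, (sub (L.𝓕.at t (L.hT' ht)) (core L.Γ m)).minor (L.F t) j z ≠ 0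

theorem isT (hU : TUniStmt) (hd : 0 < d) (L : DLocE (p := p) (d := d) f w m B d)
    (h : ∀ (t : Cm p) (ht : t ∈ L.T'), (sub (L.𝓕.at t (L.hT' ht)) (core L.Γ m)).IsTor) :
    IsT L := by
  have hm : ∀ (t : Cm p) (ht : t ∈ L.T') (i : Fin (sub (L.𝓕.at t (L.hT' ht)) (core L.Γ m)).N),
      ∀ z ∈ ball (0 : Cm d) 3,
      (sub (L.𝓕.at t (L.hT' ht)) (core L.Γ m)).minor (L.F t) i z ≠ 0 := by
    intro t ht i z hz
    obtain ⟨h', H', hne⟩ := h t ht
    obtain ⟨a, ha⟩ := bas_minor (L.bas t ht) H'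
    have h1 := hne i z hz
    rw [ha i z hz] at h1
    exact right_ne_zero_of_mul h1
  exact ⟨fun t ht => (hU d L.E (core L.Γ m) (sub (L.𝓕.at t (L.hT' ht)) (core L.Γ m)) (L.F t)
    (L.c t) hd (fun a => (L.bas t ht).add a) (hm t ht)).1, hm⟩

variable {L : DLocE (p := p) (d := d) f w m B d}

/-! ### The lifts in the coordinates of the sheets -/

variable (L) in
/-- `F` in the coordinates of the sheets -/
def lf (γ : L.Γ) (i : Fin L.𝓕.N) (r : Cm p × Cm d) : EuclideanSpace ℂ (Fin d) :=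
  WithLp.toLp 2 (L.F r.1 (γ • L.𝓕.σ i r.1 r.2))

theorem lf_contDiffAt (γ : L.Γ) (i : Fin L.𝓕.N) {t : Cm p} (ht : t ∈ L.T') {z : Cm d}
    (hz : z ∈ ball (0 : Cm d) 3) : ContDiffAt ℂ ω (lf L γ i) (t, z) := by
  have h6 : ContDiffAt ℂ ω (fun r : Cm p × Cm d => L.F r.1 (γ • L.𝓕.σ i r.1 r.2)) (t, z) := by
    rw [contDiffAt_pi]
    intro j
    exact (DLocE.holF' γ i ht hz j).contDiffAt
  exact (PiLp.continuousLinearEquiv 2 ℂ (fun _ : Fin d => ℂ)).symm.contDiff.contDiffAt.comp _ h6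

/-- the Jacobian determinant on all the translates of the sheets -/
theorem lf_minor (h : IsT L) (γ : L.Γ) (i : Fin L.𝓕.N) {t : Cm p} (ht : t ∈ L.T') {z : Cm d}
    (hz : z ∈ ball (0 : Cm d) 3) :
    (Matrix.of fun a k : Fin d => dd k (fun v => L.F t (γ • L.𝓕.σ i t v) a) z).det ≠ 0 := by
  obtain ⟨κ, c, rfl⟩ := exists_rep (core L.Γ m) γ
  have h1 := h.minor t ht (six (L.𝓕.at t (L.hT' ht)) (core L.Γ m) i c) z hz
  have h2 : (Matrix.of fun a k : Fin d =>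
      dd k (fun v => L.F t (((κ : L.Γ) * rep (core L.Γ m) c) • L.𝓕.σ i t v) a) z) =
      Matrix.of fun a k : Fin d => dd k (fun v => L.F t
        ((sub (L.𝓕.at t (L.hT' ht)) (core L.Γ m)).σ
          (six (L.𝓕.at t (L.hT' ht)) (core L.Γ m) i c) v) a) z := by
    ext a k
    simp only [Matrix.of_apply, dd]
    have h4 : ∀ v, (sub (L.𝓕.at t (L.hT' ht)) (core L.Γ m)).σ
        (six (L.𝓕.at t (L.hT' ht)) (core L.Γ m) i c) v = rep (core L.Γ m) c • L.𝓕.σ i t v :=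
      fun v => sub_sigma' (L.𝓕.at t (L.hT' ht)) (core L.Γ m) i c v
    have h3 : (fun v => L.F t (((κ : L.Γ) * rep (core L.Γ m) c) • L.𝓕.σ i t v) a) =
        fun v => L.F t ((sub (L.𝓕.at t (L.hT' ht)) (core L.Γ m)).σ
          (six (L.𝓕.at t (L.hT' ht)) (core L.Γ m) i c) v) a + L.c t κ a := by
      funext v
      rw [mul_smul, h4 v]
      exact ((L.bas t ht).add a).add κ _
    rw [h3, fderiv_add_const]
  rw [h2]
  exact h1

/-- `F` is immersive -/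
theorem lf_inj (h : IsT L) (γ : L.Γ) (i : Fin L.𝓕.N) {t : Cm p} (ht : t ∈ L.T') {z : Cm d}
    (hz : z ∈ ball (0 : Cm d) 3) {v : Cm d} (hv : fderiv ℂ (lf L γ i) (t, z) (0, v) = 0) :
    v = 0 := by
  have hG : DifferentiableAt ℂ (lf L γ i) (t, z) :=
    (lf_contDiffAt γ i ht hz).differentiableAt (by simp)
  have h6 : ∀ j, fderiv ℂ (fun u => L.F t (γ • L.𝓕.σ i t u) j) z v = 0 := by
    intro j
    have h7 : HasFDerivAt (fun u : Cm d => ((t, u) : Cm p × Cm d))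
        (ContinuousLinearMap.inr ℂ (Cm p) (Cm d)) z := hasFDerivAt_prodMk_right _ _
    have h8 : HasFDerivAt (fun u : Cm d => lf L γ i (t, u))
        ((fderiv ℂ (lf L γ i) (t, z)).comp (ContinuousLinearMap.inr ℂ (Cm p) (Cm d))) z :=
      HasFDerivAt.comp (g := lf L γ i) z hG.hasFDerivAt h7
    have h9 : HasFDerivAt (fun u : Cm d => (lf L γ i (t, u)) j)
        ((EuclideanSpace.proj j : EuclideanSpace ℂ (Fin d) →L[ℂ] ℂ).comp
          ((fderiv ℂ (lf L γ i) (t, z)).comp (ContinuousLinearMap.inr ℂ (Cm p) (Cm d)))) z :=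
      (EuclideanSpace.proj j : EuclideanSpace ℂ (Fin d) →L[ℂ] ℂ).hasFDerivAt.comp z h8
    have h10 : (fun u => L.F t (γ • L.𝓕.σ i t u) j) =
        fun u : Cm d => (lf L γ i (t, u)) j := rfl
    rw [h10, h9.fderiv]
    show (fderiv ℂ (lf L γ i) (t, z) (0, v)) j = 0
    rw [hv]
    rfl
  refine Matrix.eq_zero_of_mulVec_eq_zero (lf_minor h γ i ht hz) ?_
  funext j
  show ∑ k, fderiv ℂ (fun u => L.F t (γ • L.𝓕.σ i t u) j) z (Pi.single k 1) * v k = 0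
  rw [← h6 j]
  have h7 : v = ∑ k, v k • (Pi.single k (1 : ℂ) : Cm d) := by
    funext l
    simp [Finset.sum_apply, Pi.single_apply]
  conv_rhs => rw [h7]
  rw [map_sum]
  refine Finset.sum_congr rfl fun k _ => ?_
  rw [map_smul, smul_eq_mul, mul_comm]

/-- the inverse of `F t` -/
def inv (L : DLocE (p := p) (d := d) f w m B d) (t : Cm p) (v : EuclideanSpace ℂ (Fin d)) : L.E :=
  Function.invFun (L.F t) (WithLp.ofLp v)

theorem F_inv (h : IsT L) {t : Cm p} (ht : t ∈ L.T') (v : EuclideanSpace ℂ (Fin d)) :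
    WithLp.toLp 2 (L.F t (inv L t v)) = v := by
  have h1 : L.F t (inv L t v) = WithLp.ofLp v := Function.rightInverse_invFun (h.bij t ht).2 _
  rw [h1]

theorem inv_F (h : IsT L) {t : Cm p} (ht : t ∈ L.T') (e : L.E) :
    inv L t (WithLp.toLp 2 (L.F t e)) = e :=
  Function.leftInverse_invFun (h.bij t ht).1 e

theorem inv_eq (h : IsT L) {t : Cm p} (ht : t ∈ L.T') {v : EuclideanSpace ℂ (Fin d)} {e : L.E}
    (he : WithLp.toLp 2 (L.F t e) = v) : inv L t v = e := by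
  rw [← he, inv_F h ht]

/-- **local inverses of `F`** -/
theorem local_inv (h : IsT L) (γ : L.Γ) (i : Fin L.𝓕.N) {t : Cm p} (ht : t ∈ L.T') {z : Cm d}
    (hz : z ∈ ball (0 : Cm d) 3) : ∃ ψ : Cm p × EuclideanSpace ℂ (Fin d) → Cm d,
      ContDiffAt ℂ ω ψ (t, lf L γ i (t, z)) ∧ ψ (t, lf L γ i (t, z)) = z ∧
      ∀ᶠ r in 𝓝 (t, lf L γ i (t, z)), r.1 ∈ L.T' ∧ ψ r ∈ ball (0 : Cm d) 3 ∧
        lf L γ i (r.1, ψ r) = r.2 ∧ inv L r.1 r.2 = γ • L.𝓕.σ i r.1 (ψ r) := by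
  set Φ : Cm p × Cm d → Cm p × EuclideanSpace ℂ (Fin d) := fun r => (r.1, lf L γ i r) with hΦ
  have hc : ContDiffAt ℂ ω Φ (t, z) := contDiffAt_fst.prodMk (lf_contDiffAt γ i ht hz)
  have hlf : HasFDerivAt (lf L γ i) (fderiv ℂ (lf L γ i) (t, z)) (t, z) :=
    ((lf_contDiffAt γ i ht hz).differentiableAt (by simp)).hasFDerivAt
  have hD : HasFDerivAt Φ ((ContinuousLinearMap.fst ℂ (Cm p) (Cm d)).prod
      (fderiv ℂ (lf L γ i) (t, z))) (t, z) := hasFDerivAt_fst.prodMk hlf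
  set A := (ContinuousLinearMap.fst ℂ (Cm p) (Cm d)).prod (fderiv ℂ (lf L γ i) (t, z)) with hA
  have hinj : Function.Injective A := by
    rw [injective_iff_map_eq_zero]
    rintro ⟨a, b⟩ hab
    have h1 : a = 0 := congrArg Prod.fst hab
    have h2 : fderiv ℂ (lf L γ i) (t, z) (a, b) = 0 := congrArg Prod.snd hab
    rw [h1] at h2
    rw [h1, lf_inj h γ i ht hz h2]
    rfl
  have hfin : Module.finrank ℂ (Cm p × Cm d) =
      Module.finrank ℂ (Cm p × EuclideanSpace ℂ (Fin d)) := by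
    rw [Module.finrank_prod, Module.finrank_prod, Module.finrank_fin_fun,
      Module.finrank_fin_fun, finrank_euclideanSpace_fin]
  let A' : (Cm p × Cm d) ≃L[ℂ] (Cm p × EuclideanSpace ℂ (Fin d)) :=
    (LinearEquiv.ofInjectiveOfFinrankEq (A : (Cm p × Cm d) →ₗ[ℂ] _) hinj
      hfin).toContinuousLinearEquiv
  have hA' : HasFDerivAt Φ (A' : (Cm p × Cm d) →L[ℂ] (Cm p × EuclideanSpace ℂ (Fin d)))
      (t, z) := by
    have h1 : (A' : (Cm p × Cm d) →L[ℂ] (Cm p × EuclideanSpace ℂ (Fin d))) = A :=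
      ContinuousLinearMap.ext fun r => rfl
    rw [h1]
    exact hD
  have hω : (ω : WithTop ℕ∞) ≠ 0 := by simp
  set Ψ := hc.localInverse hA' hω with hΨ
  have h1 : Ψ (Φ (t, z)) = (t, z) := hc.localInverse_apply_image hA' hω
  have h2 : ContDiffAt ℂ ω Ψ (Φ (t, z)) := hc.to_localInverse hA' hω
  have h3 : ∀ᶠ r in 𝓝 (Φ (t, z)), Φ (Ψ r) = r :=
    (hc.hasStrictFDerivAt' hA' hω).eventually_right_inverse
  refine ⟨fun r => (Ψ r).2, contDiffAt_snd.comp _ h2, congrArg Prod.snd h1, ?_⟩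
  have h4 : ∀ᶠ r in 𝓝 (Φ (t, z)), (Ψ r).2 ∈ ball (0 : Cm d) 3 :=
    (continuous_snd.continuousAt.comp h2.continuousAt).eventually (by
      show ∀ᶠ u in 𝓝 (Ψ (Φ (t, z))).2, u ∈ ball (0 : Cm d) 3
      rw [h1]
      exact isOpen_ball.mem_nhds hz)
  have h5 : ∀ᶠ r : Cm p × EuclideanSpace ℂ (Fin d) in 𝓝 (Φ (t, z)), r.1 ∈ L.T' :=
    continuous_fst.continuousAt.eventually (L.isOpen'.mem_nhds ht)
  filter_upwards [h3, h4, h5] with r a b c
  have e1 : (Ψ r).1 = r.1 := congrArg Prod.fst a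
  have e2 : lf L γ i (Ψ r) = r.2 := congrArg Prod.snd a
  have e3 : lf L γ i (r.1, (Ψ r).2) = r.2 := by rw [← e1]; exact e2
  exact ⟨c, b, e3, inv_eq h c e3⟩

/-! ### The uniformization -/

variable (L) in
/-- the uniformization of the fibres -/
def u (y : Y) (v : EuclideanSpace ℂ (Fin d)) : Z := L.q (L.χ y) (inv L (L.χ y) v)

theorem f_u {y : Y} (hy : y ∈ L.U) (v : EuclideanSpace ℂ (Fin d)) : f (u L y v) = y := by
  rw [u, L.model.fib _ (L.hT' hy.2), L.left_inv hy]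

theorem u_eq (h : IsT L) {y : Y} (hy : y ∈ L.U) (e : L.E) :
    u L y (WithLp.toLp 2 (L.F (L.χ y) e)) = L.q (L.χ y) e := by
  rw [u, inv_F h hy.2]

theorem u_surj (h : IsT L) {x : Z} (hx : f x ∈ L.U) : ∃ v, u L (f x) v = x := by
  obtain ⟨e, he⟩ := L.exists_pt hx
  exact ⟨_, (u_eq h hx e).trans he⟩

theorem exists_sheet (h : IsT L) {t : Cm p} (ht : t ∈ L.T') (v : EuclideanSpace ℂ (Fin d)) :
    ∃ (γ : L.Γ) (i : Fin L.𝓕.N) (z : Cm d), z ∈ ball (0 : Cm d) 3 ∧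
      inv L t v = γ • L.𝓕.σ i t z ∧ lf L γ i (t, z) = v := by
  obtain ⟨γ, i, z, hz, hγ⟩ := L.𝓕.cover _ (L.hT' ht) (inv L t v)
  refine ⟨γ, i, z, Sh.mem3 hz, hγ.symm, ?_⟩
  rw [lf, hγ]
  exact F_inv h ht v

/-- the uniformization in the coordinates `t` of `Y` -/
theorem q_inv_hol (h : IsT L) {t : Cm p} (ht : t ∈ L.T') (v : EuclideanSpace ℂ (Fin d)) :
    ContMDiffAt 𝓘(ℂ, Cm p × EuclideanSpace ℂ (Fin d)) 𝓘(ℂ, Cm (p + d)) ω
      (fun r : Cm p × EuclideanSpace ℂ (Fin d) => L.q r.1 (inv L r.1 r.2)) (t, v) := by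
  obtain ⟨γ, i, z, hz, h1, h2⟩ := exists_sheet h ht v
  obtain ⟨ψ, h3, h4, h5⟩ := local_inv h γ i ht hz
  rw [h2] at h3 h4 h5
  have h6 : (fun r : Cm p × EuclideanSpace ℂ (Fin d) => L.q r.1 (inv L r.1 r.2)) =ᶠ[𝓝 (t, v)]
      fun r => L.q r.1 (L.𝓕.σ i r.1 (ψ r)) := by
    filter_upwards [h5] with r hr
    rw [hr.2.2.2]
    exact ((L.model.eq _ (L.hT' hr.1) _ _).2 ⟨γ, rfl⟩).symm
  refine ContMDiffAt.congr_of_eventuallyEq ?_ h6
  have h7 : ContMDiffAt 𝓘(ℂ, Cm p × EuclideanSpace ℂ (Fin d)) 𝓘(ℂ, Cm p × Cm d) ω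
      (fun r : Cm p × EuclideanSpace ℂ (Fin d) => (r.1, ψ r)) (t, v) :=
    (contDiffAt_fst.prodMk h3).contMDiffAt
  have h8 := L.model.hol i t (L.hT' ht) z hz
  rw [← h4] at h8
  exact ContMDiffAt.comp (t, v) (g := fun r : Cm p × Cm d => L.q r.1 (L.𝓕.σ i r.1 r.2))
    (f := fun r : Cm p × EuclideanSpace ℂ (Fin d) => (r.1, ψ r)) h8 h7

/-- **the uniformization is holomorphic** -/
theorem u_hol (h : IsT L) {y : Y} (hy : y ∈ L.U) (v : EuclideanSpace ℂ (Fin d)) :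
    ContMDiffAt (𝓘(ℂ, Cm p).prod 𝓘(ℂ, EuclideanSpace ℂ (Fin d))) 𝓘(ℂ, Cm (p + d)) ω
      (fun z : Y × EuclideanSpace ℂ (Fin d) => u L z.1 z.2) (y, v) := by
  have h1 := q_inv_hol h hy.2 v
  have h2 : ContMDiffAt (𝓘(ℂ, Cm p).prod 𝓘(ℂ, EuclideanSpace ℂ (Fin d)))
      𝓘(ℂ, Cm p × EuclideanSpace ℂ (Fin d)) ω
      (fun z : Y × EuclideanSpace ℂ (Fin d) => (L.χ z.1, z.2)) (y, v) := by
    rw [modelWithCornersSelf_prod, ← chartedSpaceSelf_prod]
    refine ContMDiffAt.prodMk ?_ contMDiffAt_snd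
    exact ContMDiffAt.comp (y, v) (g := L.χ) (f := fun z : Y × EuclideanSpace ℂ (Fin d) => z.1)
      (L.contMDiffAt_χ hy) contMDiffAt_fst
  exact ContMDiffAt.comp (y, v) (g := fun r : Cm p × EuclideanSpace ℂ (Fin d) =>
    L.q r.1 (inv L r.1 r.2)) (f := fun z : Y × EuclideanSpace ℂ (Fin d) => (L.χ z.1, z.2)) h1 h2

/-- the periods -/
theorem u_per (hF2 : F2Stmt) (hd : 0 < d) (hn : n = 2 * d) (h : IsT L)
    (D : (Fin n → ℝ) ≃L[ℝ] EuclideanSpace ℂ (Fin d)) {y : Y} (hy : y ∈ L.U)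
    (v : EuclideanSpace ℂ (Fin d)) (k : Fin n → ℤ) :
    u L y (v + L.π D y fun i => (k i : ℝ)) = u L y v := by
  obtain ⟨κ, hκ⟩ := L.M.surj k
  have hb := L.bas _ hy.2
  have h1 := hb.per_eq (M := L.M) κ
  rw [← DLocE.π_spec hF2 hd hn D hy] at h1
  simp only [hκ] at h1
  have h2 : (WithLp.toLp 2 (L.F (L.χ y) (κ • inv L (L.χ y) v)) : EuclideanSpace ℂ (Fin d)) =
      v + L.π D y fun i => (k i : ℝ) := by
    rw [← h1]
    conv_rhs => rw [← F_inv h hy.2 v]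
    rw [← WithLp.toLp_add]
    congr 1
    funext j
    exact (hb.add j).add κ _
  rw [← h2, u_eq h hy, u]
  exact L.q_smul hy (κ : L.Γ) _

end Vale.Agent.P281.H603.TD
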